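import Vale.Agent.P220.R2.H57.B.Orient
import Vale.Agent.P220.R2.H252.G.Final

/-!
A closed exact Lagrangian that stays embedded when all momenta but one are forgotten is Hamiltonian
isotopic to the zero section.
-/

namespace Vale.Agent.P220.R2.H57

variable {E : Type} [NormedAddCommGroup E] [InnerProductSpace ℝ E] [FiniteDimensional ℝ E]

theorem main_any {n : ℕ} {Q : Set E} {L : Set (E × E)} {X : E → E} (hQ : IsClosedManifold n Q)
    (hL : IsClosedExactLagrangian n Q L) (h : IsMomentumEmbedded Q L X) : HamIsotopicToZero Q L := by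
  obtain ⟨D, rfl, rfl⟩ := exists_base hQ hL h
  obtain ⟨Λ⟩ := D.exists_leaf
  exact D.ham_isotopic_of Λ (fun z hz z' hz' t h => Λ.one_leaf hz hz' h) (Base.surj Λ)

end Vale.Agent.P220.R2.H57
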